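import Vale.Agent.P355.H129V.Sos
import Vale.Agent.P355.H693W.Fin

/-! From the checked chunks of rows and the four checked matrices to the nonnegativity of the list
of classes: the hypothesis `hS` of `H693W.VI_packed` (helper882). -/

namespace Vale.Agent.P355.H882

open Finset Vale.Agent.P355
open Vale.Agent.P355.H129 (psdCk pk)
open Vale.Agent.P355.H138 (Tr BrP RwP Base)
open Vale.Agent.P355.H387 (Cls CT evL evL_append evL_flatten ckMerge ckMerge_sound ckFin)
open Vale.Agent.P355.H693.Inj (riv Mt cls_riv)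
open Vale.Agent.P355.H693W (riv_sqF isOne oneL VI_packed)
open Vale.Agent.P355.H129V

variable {ct : CT} {fl : List (Fg × Fg)} {w oU : ℕ}

/-- the rows `T`, from row `i` on, have the value of the list `o`, for every class function. -/
def ChV (ct : CT) (fl : List (Fg × Fg)) (w oU i : ℕ) (T : List RT) (o : List (ℕ × ℕ)) : Prop :=
  ∀ F : Bool → Mt → ℝ, Cls F → Rvs F w oU fl T (fl.drop i) i = evL F ct o

/-- one checked chunk. -/
theorem chV_one (hfl : fl.all okF = true) {i : ℕ} {T : List RT} {o : List (ℕ × ℕ)}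
    (h : ckV ct fl w oU i T o = true) : ChV ct fl w oU i T o :=
  fun _ hF => ckV_sound hF hfl h

/-- no rows. -/
theorem chV_nil (i : ℕ) : ChV ct fl w oU i [] [] := by
  intro F _
  simp [Rvs, evL]

/-- concatenation. -/
theorem ChV.app {i j : ℕ} {T T' : List RT} {o o' : List (ℕ × ℕ)} (h : ChV ct fl w oU i T o)
    (hj : i + T.length = j) (h' : ChV ct fl w oU j T' o') :
    ChV ct fl w oU i (T ++ T') (o ++ o') := by
  intro F hF
  rw [Rvs_append w oU fl T T' i j hj, h F hF, h' F hF, evL_append]

/-- merging of the lists of the chunks. -/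
theorem ChV.merge {i : ℕ} {T : List RT} {o : List (ℕ × ℕ)} (h : ChV ct fl w oU i T o)
    {Ls : List (List (ℕ × ℕ))} (ho : Ls.flatten = o) {out : List (ℕ × ℕ)}
    (hm : ckMerge ct Ls out = true) : ChV ct fl w oU i T out := by
  intro F hF
  rw [h F hF, ← ho, evL_flatten, ckMerge_sound hm]

/-- chunks with their lists: `Ts` and `os` in order. -/
theorem chV_list (n : ℕ) (Ts : List (List RT)) (os : List (List (ℕ × ℕ))) (is : List ℕ)
    (hn : Ts.length = n) (hn' : os.length = n)
    (his : ∀ k < n, is.getD (k + 1) 0 = is.getD k 0 + (Ts.getD k []).length)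
    (h : ∀ k < n, ChV ct fl w oU (is.getD k 0) (Ts.getD k []) (os.getD k [])) :
    ChV ct fl w oU (is.getD 0 0) Ts.flatten os.flatten := by
  induction n generalizing Ts os is with
  | zero =>
    rw [List.length_eq_zero_iff] at hn hn'
    subst hn hn'
    exact chV_nil _
  | succ n ih =>
    cases Ts with
    | nil => simp at hn
    | cons T Ts =>
      cases os with
      | nil => simp at hn'
      | cons o os =>
        rw [List.length_cons] at hn hn'
        have h0 := h 0 (by omega)
        have i0 := his 0 (by omega)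
        rw [List.getD_cons_zero, List.getD_cons_zero] at h0
        rw [List.getD_cons_zero] at i0
        rw [List.flatten_cons, List.flatten_cons]
        refine h0.app i0.symm ?_
        have h1 := ih Ts os (is.drop 1) (by omega) (by omega) (fun k hk => by
          have h2 := his (k + 1) (by omega)
          rw [List.getD_cons_succ] at h2
          simp only [List.getD_eq_getElem?_getD, List.getElem?_drop] at h2 ⊢
          have e1 : 1 + (k + 1) = k + 1 + 1 := by omega
          have e2 : 1 + k = k + 1 := by omega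
          rw [e1, e2]
          exact h2) (fun k hk => by
          have h2 := h (k + 1) (by omega)
          rw [List.getD_cons_succ, List.getD_cons_succ] at h2
          have e2 : (is.drop 1).getD k 0 = is.getD (k + 1) 0 := by
            simp only [List.getD_eq_getElem?_getD, List.getElem?_drop]
            rw [Nat.add_comm 1 k]
          rw [e2]
          exact h2)
        have e3 : (is.drop 1).getD 0 0 = is.getD (0 + 1) 0 := by
          simp only [List.getD_eq_getElem?_getD, List.getElem?_drop]
        rw [e3] at h1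
        exact h1

section

variable {n : ℕ} {T : List RT} {o : List (ℕ × ℕ)}
  {bu0 bl0 v0 c0 o0 δ0 bu1 bl1 v1 c1 o1 δ1 bu2 bl2 v2 c2 o2 δ2 bu3 bl3 v3 c3 o3 δ3 : ℕ}
  {Cs0 Cs1 Cs2 Cs3 : List ℕ}

/-- **the sum of squares is nonnegative**, for every class function with nonnegative squares. -/
theorem evL_nonneg (h : ChV ct fl w oU 0 T o)
    (k0 : psdCk w bu0 bl0 v0 n c0 o0 oU δ0 (U0s T) Cs0 = true)
    (k1 : psdCk w bu1 bl1 v1 n c1 o1 oU δ1 (U1s T) Cs1 = true)
    (k2 : psdCk w bu2 bl2 v2 n c2 o2 oU δ2 (U2s T) Cs2 = true)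
    (k3 : psdCk w bu3 bl3 v3 n c3 o3 oU δ3 (U3s T) Cs3 = true)
    {x : Fin 7 → Fin 7 → ℂ} (hx : Base x) : 0 ≤ evL (riv x) ct o := by
  have h1 := h (riv x) (cls_riv hx)
  rw [List.drop_zero] at h1
  rw [← h1]
  exact Rvs_nonneg (cls_riv hx) (riv_sqF hx) k0 k1 k2 k3

/-- the hypothesis `hS` of `H693W.VI_packed`. -/
theorem hS_of (h : ChV ct fl w oU 0 T o)
    (k0 : psdCk w bu0 bl0 v0 n c0 o0 oU δ0 (U0s T) Cs0 = true)
    (k1 : psdCk w bu1 bl1 v1 n c1 o1 oU δ1 (U1s T) Cs1 = true)
    (k2 : psdCk w bu2 bl2 v2 n c2 o2 oU δ2 (U2s T) Cs2 = true)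
    (k3 : psdCk w bu3 bl3 v3 n c3 o3 oU δ3 (U3s T) Cs3 = true) :
    ∀ x, H138.Good false x → H182.N7x x → 0 ≤ evL (riv x) ct o :=
  fun _ hx _ => evL_nonneg h k0 k1 k2 k3 hx.1

end

/-- two families of squares (for instance two groups of flags over the same class table). -/
theorem hS_add {o o' : List (ℕ × ℕ)}
    (h : ∀ x, H138.Good false x → H182.N7x x → 0 ≤ evL (riv x) ct o)
    (h' : ∀ x, H138.Good false x → H182.N7x x → 0 ≤ evL (riv x) ct o') :
    ∀ x, H138.Good false x → H182.N7x x → 0 ≤ evL (riv x) ct (o ++ o') := by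
  intro x hx hN
  rw [evL_append]
  exact add_nonneg (h x hx hN) (h' x hx hN)

/-- merged lists. -/
theorem hS_merge {Ls : List (List (ℕ × ℕ))}
    (h : ∀ x, H138.Good false x → H182.N7x x → 0 ≤ evL (riv x) ct Ls.flatten)
    {out : List (ℕ × ℕ)} (hm : ckMerge ct Ls out = true) :
    ∀ x, H138.Good false x → H182.N7x x → 0 ≤ evL (riv x) ct out := by
  intro x hx hN
  have h1 := h x hx hN
  rw [evL_flatten, ckMerge_sound hm] at h1
  exact h1

end Vale.Agent.P355.H882
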