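import Vale.Agent.P355.H693W.Pat
import Vale.Agent.P355.H129.Psd

/-! The checked integer matrices as positive semidefinite matrices on `Fin n`, and the symmetrised
squares with a checked matrix, in triangular form (helper882). -/

namespace Vale.Agent.P355.H882

open Finset Vale.Agent.P355
open Vale.Agent.P355.H129 (dg Gm Gm_comm psdCk psdCk_nonneg psdCk_bdd)
open Vale.Agent.P355.H138 hiding Pl
open Vale.Agent.P355.H387 (Cls)
open Vale.Agent.P355.H693W Vale.Agent.P355.H693.Inj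

variable {F : Bool → Mt → ℝ}

/-- from `range n` to `Fin n`. -/
theorem psdF_of_psd {n : ℕ} {G : ℕ → ℕ → ℝ} (h : PSD n G) :
    PSDF (fun i j : Fin n => G i j) := by
  intro z
  have h1 := h fun k => if hk : k < n then z ⟨k, hk⟩ else 0
  rw [Finset.sum_range] at h1
  refine h1.trans_eq ?_
  refine Finset.sum_congr rfl fun i _ => ?_
  rw [Finset.sum_range]
  refine Finset.sum_congr rfl fun j _ => ?_
  simp

/-- **the checked blocks.** -/
theorem psdF_of_ck {w bu bl v n c o oU δ : ℕ} {Us Cs : List ℕ}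
    (h : psdCk w bu bl v n c o oU δ Us Cs = true) :
    PSDF (fun i j : Fin n => (Gm w oU Us i j : ℝ)) :=
  psdF_of_psd (G := fun i j => (Gm w oU Us i j : ℝ)) fun z => psdCk_nonneg h z

theorem tF_comm (hC : Cls F) (b : Bool) (n n' : Fl) (φ ψ φ' ψ' : Fin 3 → Fin 6) :
    tF F b n n' φ ψ φ' ψ' = tF F b n' n φ' ψ' φ ψ := by
  unfold tF
  rw [← hC.neg b (fun p q => push φ' ψ' n' p q - push φ ψ n p q)]
  congr 1
  funext p q
  ring

/-- `sF` is symmetric. -/
theorem sF_comm (hC : Cls F) (b : Bool) (n n' : Fl) : sF F b n n' = sF F b n' n := by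
  have h1 : ∑ e : Pl, ∑ e' : Pl, ∑ f : Pl, ∑ g : Pl,
      tF F b n n' (ph e.1) (ph e'.1) (ph f.1) (ph g.1) = 400 * sF F b n n' := by
    simp only [sF_any hC b n n', Finset.sum_const, Finset.card_univ, card_Pl, nsmul_eq_mul]
    push_cast
    ring
  have h2 : ∑ e : Pl, ∑ e' : Pl, ∑ f : Pl, ∑ g : Pl,
      tF F b n' n (ph e.1) (ph e'.1) (ph f.1) (ph g.1) = 400 * sF F b n' n := by
    simp only [sF_any hC b n' n, Finset.sum_const, Finset.card_univ, card_Pl, nsmul_eq_mul]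
    push_cast
    ring
  have h3 : ∑ e : Pl, ∑ e' : Pl, ∑ f : Pl, ∑ g : Pl,
      tF F b n n' (ph e.1) (ph e'.1) (ph f.1) (ph g.1) = ∑ e : Pl, ∑ e' : Pl, ∑ f : Pl, ∑ g : Pl,
      tF F b n' n (ph e.1) (ph e'.1) (ph f.1) (ph g.1) := by
    simp only [tF_comm hC b n n']
    have h4 : ∀ T : Pl → Pl → Pl → Pl → ℝ, ∑ e : Pl, ∑ e' : Pl, ∑ f : Pl, ∑ g : Pl, T f g e e' =
        ∑ e : Pl, ∑ e' : Pl, ∑ f : Pl, ∑ g : Pl, T e e' f g := by
      intro T
      have h5 : ∀ e : Pl, ∑ e' : Pl, ∑ f : Pl, ∑ g : Pl, T f g e e' =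
          ∑ f : Pl, ∑ e' : Pl, ∑ g : Pl, T f g e e' := fun e => Finset.sum_comm
      simp only [h5]
      rw [Finset.sum_comm]
      refine Finset.sum_congr rfl fun f _ => ?_
      have h6 : ∀ e : Pl, ∑ e' : Pl, ∑ g : Pl, T f g e e' = ∑ g : Pl, ∑ e' : Pl, T f g e e' :=
        fun e => Finset.sum_comm
      simp only [h6]
      rw [Finset.sum_comm]
    exact h4 fun f g e e' => tF F b n' n (ph f.1) (ph g.1) (ph e.1) (ph e'.1)
  rw [h1, h2] at h3
  linarith

/-- `s4` is symmetric. -/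
theorem s4_comm (hC : Cls F) (et ec : ℝ) (b : Bool) (n n' : Fl) :
    s4 F et ec b n n' = s4 F et ec b n' n := by
  unfold s4
  have h1 : sF F b n (tr n') = sF F b n' (tr n) := by
    rw [← sF_tr hC b n (tr n'), tr_tr, sF_comm hC]
  have h2 : sF F b n (ng n') = sF F b n' (ng n) := by
    rw [← sF_ng hC b n (ng n'), ng_ng, sF_comm hC]
  have h3 : sF F b n (ng (tr n')) = sF F b n' (ng (tr n)) := by
    rw [← sF_ng hC b n (ng (tr n')), ng_ng, ← sF_tr hC b (ng n) (tr n'), tr_tr, tr_ng,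
      sF_comm hC]
  rw [sF_comm hC b n n', h1, h2, h3]

theorem par6_comm (b c : Bool) : par6 b c = par6 c b := by
  cases b <;> cases c <;> rfl

/-- sums over a triangle. -/
theorem tri_sum (n : ℕ) (a : ℕ → ℕ → ℝ) (ha : ∀ k l, a k l = a l k) :
    ∑ k ∈ range n, ∑ l ∈ range n, a k l =
      ∑ k ∈ range n, (a k k + 2 * ∑ l ∈ range k, a k l) := by
  induction n with
  | zero => simp
  | succ n ih =>
    rw [Finset.sum_range_succ]
    have h1 : ∀ k ∈ range n, ∑ l ∈ range (n + 1), a k l = ∑ l ∈ range n, a k l + a n k := by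
      intro k _
      rw [Finset.sum_range_succ, ha k n]
    rw [Finset.sum_congr rfl h1, Finset.sum_add_distrib, ih, Finset.sum_range_succ,
      Finset.sum_range_succ]
    ring

/-- **Symmetrised squares with a checked matrix, triangular form.** -/
theorem sosS_ck (hC : Cls F) (hS : SqF F) {w bu bl v K c o oU δ : ℕ} {Us Cs : List ℕ}
    (h : psdCk w bu bl v K c o oU δ Us Cs = true) (b : ℕ → Bool) (n : ℕ → Fl) {et ec : ℝ}
    (h1 : et * et = 1) (h2 : ec * ec = 1) :
    0 ≤ ∑ k ∈ range K, ((Gm w oU Us k k : ℝ) *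
        ((par6 (b k) (b k) : ℝ) * s4 F et ec (xor (b k) (b k)) (n k) (n k)) +
      2 * ∑ l ∈ range k, (Gm w oU Us k l : ℝ) *
        ((par6 (b k) (b l) : ℝ) * s4 F et ec (xor (b k) (b l)) (n k) (n l))) := by
  have h3 := sosS hC hS _ (psdF_of_ck h) (fun k => b k) (fun k => n k) h1 h2
  rw [← tri_sum K (fun k l => (Gm w oU Us k l : ℝ) *
    ((par6 (b k) (b l) : ℝ) * s4 F et ec (xor (b k) (b l)) (n k) (n l))) fun k l => by
      rw [Gm_comm, par6_comm, Bool.xor_comm, s4_comm hC]]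
  refine h3.trans_eq ?_
  rw [Finset.sum_range]
  refine Finset.sum_congr rfl fun i _ => ?_
  rw [Finset.sum_range]

end Vale.Agent.P355.H882
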